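import Vale.Agent.P216.H971B.Props
import Vale.Agent.P216.H994.EtaNeK
import Vale.Agent.P216.H250.Move

/-!
# P216-B, R6b: change of the base point for `eta` on the null-homotopic loops
-/

set_option linter.all false

open Set BoundedContinuousFunction

namespace Vale.Agent.P216.H246B

open Vale.Agent.P216.Sl Vale.Agent.P216.PS Vale.Agent.P216.N929
open Vale.Agent.P216.H977C Vale.Agent.P216.H250

variable {M : Type} [MetricSpace M] [CompactSpace M]

/-- `v * w * v⁻`. -/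
noncomputable def conj (m T : ℕ) (v w : ℝ →ᵇ M) : ℝ →ᵇ M :=
  PS.cat (m : ℝ) v (PS.cat (T : ℝ) w (revB m v))

theorem conj_mem {x y : M} {m T : ℕ} {v w : ℝ →ᵇ M} (hv : v ∈ PS.P x y m) (hw : w ∈ PS.P y y T) :
    conj m T v w ∈ PS.P x x ((m + (T + m) : ℕ) : ℝ) := by
  have hm : (0:ℝ) ≤ m := Nat.cast_nonneg m
  have hT : (0:ℝ) ≤ T := Nat.cast_nonneg T
  have := PS.cat_mem hm (add_nonneg hT hm) hv (PS.cat_mem hT hm hw (revB_mem hv))
  push_cast
  exact this

theorem mid_mem {x y : M} {m T : ℕ} {v w : ℝ →ᵇ M} (hv : v ∈ PS.P x y m) (hw : w ∈ PS.P y y T) :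
    PS.cat (T : ℝ) w (revB m v) ∈ PS.P y x ((T : ℝ) + m) :=
  PS.cat_mem (Nat.cast_nonneg T) (Nat.cast_nonneg m) hw (revB_mem hv)

theorem dist_conj_le {x y : M} {m T : ℕ} {v w w' : ℝ →ᵇ M} (hv : v ∈ PS.P x y m)
    (hw : w ∈ PS.P y y T) (hw' : w' ∈ PS.P y y T) :
    dist (conj m T v w) (conj m T v w') ≤ dist w w' :=
  (dist_catL_le hv (mid_mem hv hw) (mid_mem hv hw')).trans
    (dist_catR_le (revB_mem hv) hw hw')

theorem continuousOn_conj {x y : M} {m T : ℕ} {v : ℝ →ᵇ M} (hv : v ∈ PS.P x y m) :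
    ContinuousOn (conj m T v) (PS.P y y T) := by
  refine LipschitzOnWith.continuousOn (K := 1) (LipschitzOnWith.of_dist_le_mul fun w hw w' hw' => ?_)
  rw [NNReal.coe_one, one_mul]
  exact dist_conj_le hv hw hw'

theorem conj_cst {x y : M} {m T : ℕ} {v : ℝ →ᵇ M} (hv : v ∈ PS.P x y m) (u : ℝ) :
    conj m T v (PS.cst y) u = v (min (m : ℝ) (min u (2 * m + T - u))) := by
  have hm : (0:ℝ) ≤ m := Nat.cast_nonneg m
  have hT : (0:ℝ) ≤ T := Nat.cast_nonneg T
  have hc := PS.cst_mem y (T : ℝ)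
  rw [conj, cat_apply' hv (mid_mem hv hc)]
  split_ifs with h1
  · rw [min_eq_left (a := u) (by linarith), min_eq_right h1]
  · rw [cat_apply' hc (revB_mem hv)]
    push Not at h1
    split_ifs with h2
    · rw [PS.cst_apply, min_eq_left]
      · exact (PS.eq_right hv le_rfl).symm
      · exact le_min h1.le (by linarith)
    · push Not at h2
      rw [revB_apply, min_eq_right (a := u) (by linarith), min_eq_right (by linarith)]
      congr 1
      ring

theorem joined_conj_cst {x y : M} {m T : ℕ} {v : ℝ →ᵇ M} (hv : v ∈ PS.P x y m) :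
    JoinedIn (PS.P x x ((m + (T + m) : ℕ) : ℝ)) (conj m T v (PS.cst y)) (PS.cst x) := by
  have hm : (0:ℝ) ≤ m := Nat.cast_nonneg m
  have hT : (0:ℝ) ≤ T := Nat.cast_nonneg T
  have key := JI.of_family (a := x) (b := x) (t := ((m + (T + m) : ℕ) : ℝ))
    (H := fun s u => v (min (s * m) (min u (2 * m + T - u)))) ?_ ?_
  · refine JoinedIn.symm (joinedIn_P (Nat.cast_nonneg _) ?_)
    convert key using 1
    · funext u
      refine (hv.2.1 _ ?_).symm
      exact (min_le_left _ _).trans (by simp)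
    · funext u
      rw [conj_cst hv, one_mul]
  · intro s hs
    refine ⟨fun u u' => (hv.1 _ _).trans ?_, fun u hu => hv.2.1 _ ?_, fun u hu => hv.2.1 _ ?_⟩
    · refine (abs_min_sub_min_le_max _ _ _ _).trans ?_
      rw [sub_self, abs_zero]
      refine max_le (abs_nonneg _) ((abs_min_sub_min_le_max _ _ _ _).trans ?_)
      refine max_le le_rfl (le_of_eq ?_)
      rw [show 2 * (m : ℝ) + T - u - (2 * m + T - u') = -(u - u') by ring, abs_neg]
    · exact (min_le_right _ _).trans ((min_le_left _ _).trans hu)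
    · refine (min_le_right _ _).trans ((min_le_right _ _).trans ?_)
      push_cast at hu
      linarith
  · intro u
    refine (v.continuous.comp ?_).continuousOn
    fun_prop

variable {k : Type} [Field k]

theorem eta_conj {x y : M} {m T : ℕ} {v : ℝ →ᵇ M} (hv : v ∈ PS.P x y m) (N : ℕ) {U : List M → k}
    (hN : Nrm U) {l : List (ℝ →ᵇ M)} (hl : 2 ≤ l.length) (h : ∀ w ∈ l, w ∈ PS.P y y T) :
    H140.eta N U (l.map (conj m T v)) = H140.eta N U l := by
  have hm : (0:ℝ) ≤ m := Nat.cast_nonneg m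
  have hT : (0:ℝ) ≤ T := Nat.cast_nonneg T
  have e0 : l.map (conj m T v) = (l.map fun w => PS.cat (T : ℝ) w (revB m v)).map
      (PS.cat (m : ℝ) v) := by
    rw [List.map_map]; rfl
  rw [e0, eta_front N hN m (fun u => v u) (PS.cat (m : ℝ) v) _ (by rwa [List.length_map])]
  · refine eta_back N hN T (fun u => revB m v (u - T)) (fun _ => y)
      (fun w => PS.cat (T : ℝ) w (revB m v)) l hl fun w hw => ⟨fun u h0 hu => ?_, fun u hu =>
        ⟨?_, PS.eq_right (h w hw) hu⟩⟩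
    · have e : w (T : ℝ) = revB m v 0 := by
        rw [PS.eq_right (h w hw) le_rfl, PS.eq_left (revB_mem hv) le_rfl]
      rw [PS.cat_apply (h w hw).1 (revB_mem hv).1 e, PS.catf_left hu]
    · have e : w (T : ℝ) = revB m v 0 := by
        rw [PS.eq_right (h w hw) le_rfl, PS.eq_left (revB_mem hv) le_rfl]
      rw [PS.cat_apply (h w hw).1 (revB_mem hv).1 e, PS.catf_right e hu]
  · intro w' hw'
    obtain ⟨w, hw, rfl⟩ := List.mem_map.1 hw'
    have hmem := mid_mem hv (h w hw)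
    have e : v (m : ℝ) = PS.cat (T : ℝ) w (revB m v) 0 := by
      rw [PS.eq_right hv le_rfl, PS.eq_left hmem le_rfl]
    refine ⟨fun u h0 hu => ?_, fun u hu => ?_⟩
    · rw [PS.cat_apply hv.1 hmem.1 e, PS.catf_left hu]
    · rw [PS.cat_apply hv.1 hmem.1 e, PS.catf_right e hu]

/-- **R6b**: change of the base point. -/
theorem r6b [PathConnectedSpace M] {ρ : ℝ} (hρ : 0 < ρ) (hU : LS.UniqSeg M ρ) {q : ℕ}
    (hq : 1 ≤ q) {U : List M → k} (hN : Nrm U) (y x : M) (T : ℕ) :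
    ∃ T' : ℕ, ∀ N : ℕ, ¬ ExL (H971B.Om0 M y T) q (H140.eta N U) →
      ¬ ExL (H971B.Om0 M x T') q (H140.eta N U) := by
  obtain ⟨t, ht, f, hf⟩ := exists_one hρ hU x y
  set m : ℕ := ⌈t⌉₊ with hm
  have hv : PS.mo f ∈ PS.P x y m := PS.P_mono (Nat.le_ceil t) (mo_mem_P hf)
  set v : ℝ →ᵇ M := PS.mo f with hvdef
  refine ⟨m + (T + m), fun N h hex => h ?_⟩
  obtain ⟨g, hg0, ε, hε, hg⟩ := hex
  refine ⟨fun l => g (l.map (conj m T v)), fun h => by omega, ε, hε, fun l hl hs => ?_⟩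
  have hl2 : 2 ≤ l.length := by omega
  rw [← eta_conj hv N hN hl2 fun w hw => (hs.1 w hw).1, N929.dl_map]
  refine hg _ (by rw [List.length_map]; exact hl) ⟨fun w hw => ?_, fun w hw w' hw' => ?_⟩
  · obtain ⟨u, hu, rfl⟩ := List.mem_map.1 hw
    have h1 := hs.1 u hu
    refine ⟨conj_mem hv h1.1, ?_⟩
    refine JoinedIn.trans (y := conj m T v (PS.cst y)) ?_ (joined_conj_cst hv)
    refine (h1.2.map_continuousOn (continuousOn_conj hv)).mono ?_
    rintro _ ⟨w, hw, rfl⟩
    exact conj_mem hv hw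
  · obtain ⟨u, hu, rfl⟩ := List.mem_map.1 hw
    obtain ⟨u', hu', rfl⟩ := List.mem_map.1 hw'
    exact (dist_conj_le hv (hs.1 u hu).1 (hs.1 u' hu').1).trans_lt (hs.2 u hu u' hu')

end Vale.Agent.P216.H246B
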